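import Vale.Agent.Results.P157.AAAAA_union
import Vale.Agent.Lib.P157.SphereTilt3

open MeasureTheory ProbabilityTheory Filter Topology
open Vale.Agent.Lib.P157

namespace Vale.Agent.Results.P157.AAAAAAA_union

/-- The results of the earlier union (cube: planted replica symmetric formula, exact annealed
boundary and frozen phase, comparison with a Gaussian spin glass, phase diagram of the narrow window;
sphere: domination of the cube, two sufficient criteria for the annealed limit, explicit improved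
upper bound, strict gap when `E [G exp (f G)]` does not vanish), together with the dichotomy: when
`E [G exp (f G)] = 0` the annealed limit holds on both spaces for every density `α` with
`α (E U² - 1) ≤ 1 / 2`, `U = exp f / E exp f`, and the annealed limit at some density on either space
forces `E [G exp (f G)] = 0`. -/
theorem result :
    (∀ (f : ℝ → ℝ), Measurable f → ∀ (L : ℝ), 0 < L → (∀ u, |f u| ≤ L) →
      ∀ (α : ℝ), 0 < α →
      (∀ q ∈ Set.Icc (0 : ℝ) 1,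
        BddAbove (Set.range fun r : Set.Ici (0 : ℝ) => (r : ℝ) * q / 2 - e0RS r)) ∧
      BddAbove (Set.range fun q : Set.Icc (0 : ℝ) 1 => α * psiRS f q - jRS q) ∧
      0 ≤ rsValue α f ∧
      Tendsto (fun N : ℕ => partitionEntropy N ⌊α * N⌋₊ f / N) atTop (𝓝 (rsValue α f)) ∧
      (Tendsto (fun N : ℕ => expectedPressure N ⌊α * N⌋₊ f) atTop
          (𝓝 (α * Real.log (annealedConstant f))) ↔
        ∀ q ∈ Set.Icc (0 : ℝ) 1, α * psiRS f q ≤ jRS q) ∧
      (∀ sc : ℝ, 0 < sc →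
        α * (sc * tiltedMean f sc - Real.log (annealedConstant (fun u => sc * f u))) = Real.log 2 →
        (∀ q ∈ Set.Icc (0 : ℝ) 1, α * psiRS (fun u => sc * f u) q ≤ jRS q) →
        (∀ s : ℝ, sc ≤ s →
          Tendsto (fun N : ℕ => expectedPressure N ⌊α * N⌋₊ (fun u => s * f u)) atTop
            (𝓝 (s * (α * tiltedMean f sc) - Real.log 2))) ∧
        Tendsto (fun N : ℕ => (1 / N : ℝ) *
            ∫ G, ⨆ x, ∑ a : Fin ⌊α * N⌋₊, f (patternField x (G a)) ∂(patternsLaw N ⌊α * N⌋₊)) atTop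
          (𝓝 (α * tiltedMean f sc)))) ∧
    (∀ (N M : ℕ), 1 ≤ N → 1 ≤ M → ∀ (f : ℝ → ℝ), Measurable f →
      ∀ (L : ℝ), 0 < L → (∀ u, |f u| ≤ L) →
      (∃ (n : ℕ) (A : (Fin N → Bool) → Fin n → ℝ),
        ∀ x y, ∑ j, A x j * A y j = M * overlapCov f (overlap x y)) ∧
      ∀ (n : ℕ) (A : (Fin N → Bool) → Fin n → ℝ),
        (∀ x y, ∑ j, A x j * A y j = M * overlapCov f (overlap x y)) →
        |expectedPressure N M f - (M / N : ℝ) * (∫ u, f u ∂(gaussianReal 0 1)) -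
          (1 / N : ℝ) * ∫ z, Real.log ((∑ x, Real.exp (∑ j, A x j * z j)) / 2 ^ N)
            ∂(patternLaw n)| ≤ 32 * (M / N : ℝ) * L ^ 3 ∧
        |expectedPressure N M f - (M / N : ℝ) * (∫ u, f u ∂(gaussianReal 0 1)) -
          (1 / N : ℝ) * ∫ z, (⨆ x, ∑ j, A x j * z j) ∂(patternLaw n)| ≤
            Real.log 2 + 33 * ((M / N : ℝ) ^ (1 / 3 : ℝ)) * L) ∧
    (∀ (κ : ℝ), 0 < κ → κ ≤ Real.exp (-100) → ∀ (α : ℝ), 0 < α →
      (∀ s : ℝ, 0 < s → α * bernKL (winTilt (winMass κ) s) (winMass κ) ≤ Real.log 2 →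
        Tendsto (fun N : ℕ => expectedPressure N ⌊α * N⌋₊ (fun u => s * winPot κ u)) atTop
          (𝓝 (α * Real.log (winC (winMass κ) s)))) ∧
      (∀ s : ℝ, 0 < s → Real.log 2 < α * bernKL (winTilt (winMass κ) s) (winMass κ) →
        ∃ τc, winMass κ < τc ∧ τc < winTilt (winMass κ) s ∧
          α * bernKL τc (winMass κ) = Real.log 2 ∧
          Tendsto (fun N : ℕ => expectedPressure N ⌊α * N⌋₊ (fun u => s * winPot κ u)) atTop
            (𝓝 (s * (α * τc) - Real.log 2))) ∧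
      (α * Real.log (1 / winMass κ) ≤ Real.log 2 →
        Tendsto (fun N : ℕ => (1 / N : ℝ) *
          ∫ G, ⨆ x, ∑ a : Fin ⌊α * N⌋₊, winPot κ (patternField x (G a))
            ∂(patternsLaw N ⌊α * N⌋₊)) atTop (𝓝 α)) ∧
      (Real.log 2 < α * Real.log (1 / winMass κ) →
        ∃ τc, winMass κ < τc ∧ τc < 1 ∧ α * bernKL τc (winMass κ) = Real.log 2 ∧
          Tendsto (fun N : ℕ => (1 / N : ℝ) *
            ∫ G, ⨆ x, ∑ a : Fin ⌊α * N⌋₊, winPot κ (patternField x (G a))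
              ∂(patternsLaw N ⌊α * N⌋₊)) atTop (𝓝 (α * τc)))) ∧
    (∀ (N M : ℕ), 1 ≤ N → ∀ (f : ℝ → ℝ), Measurable f → ∀ (L : ℝ), (∀ u, |f u| ≤ L) →
      expectedPressure N M f ≤ sphereExpectedPressure N M f ∧
      sphereExpectedPressure N M f ≤ (M / N : ℝ) * Real.log (annealedConstant f)) ∧
    (∀ (f : ℝ → ℝ), Measurable f → ∀ (L : ℝ), 0 < L → (∀ u, |f u| ≤ L) →
      ∀ (α : ℝ), 0 < α →
      ((∀ q ∈ Set.Icc (0 : ℝ) 1, α * psiRS f q ≤ jRS q) →
        Tendsto (fun N : ℕ => sphereExpectedPressure N ⌊α * N⌋₊ f) atTop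
          (𝓝 (α * Real.log (annealedConstant f)))) ∧
      ((∀ ρ : ℝ, -1 < ρ → ρ < 1 →
          α * Real.log (secMoment f ρ) ≤ -(1 / 2) * Real.log (1 - ρ ^ 2)) →
        Tendsto (fun N : ℕ => sphereExpectedPressure N ⌊α * N⌋₊ f) atTop
          (𝓝 (α * Real.log (annealedConstant f))))) ∧
    (∀ (N M : ℕ), 1 ≤ N → 1 ≤ M → ∀ (f : ℝ → ℝ), Measurable f → ∀ (L : ℝ), (∀ u, |f u| ≤ L) →
      ∀ (lam : ℝ), 0 < lam → ∀ t : ℝ,
      sphereExpectedPressure N M f ≤
        lam / 2 - (((N : ℝ) - 1) / (2 * N)) * Real.log (1 + lam) +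
          (M / N : ℝ) * (t ^ 2 / (2 * lam) +
            Real.log (∫ x, Real.exp (f x - t * x) ∂(gaussianReal 0 1)))) ∧
    (∀ (f : ℝ → ℝ), Measurable f → ∀ (L : ℝ), (∀ u, |f u| ≤ L) → ∀ (α : ℝ), 0 < α →
      (∫ x, x * Real.exp (f x) ∂(gaussianReal 0 1)) ≠ 0 →
      (∃ δ : ℝ, 0 < δ ∧ ∀ᶠ N : ℕ in atTop,
        sphereExpectedPressure N ⌊α * N⌋₊ f ≤ α * Real.log (annealedConstant f) - δ) ∧
      ¬ Tendsto (fun N : ℕ => sphereExpectedPressure N ⌊α * N⌋₊ f) atTop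
        (𝓝 (α * Real.log (annealedConstant f)))) ∧
    (∀ (f : ℝ → ℝ), Measurable f → ∀ (L : ℝ), 0 < L → (∀ u, |f u| ≤ L) →
      ((∫ x, x * Real.exp (f x) ∂(gaussianReal 0 1)) = 0 →
        ∀ α : ℝ, 0 < α →
          α * ((∫ x, Real.exp (f x) ^ 2 ∂(gaussianReal 0 1)) / annealedConstant f ^ 2 - 1) ≤ 1 / 2 →
          Tendsto (fun N : ℕ => expectedPressure N ⌊α * N⌋₊ f) atTop
            (𝓝 (α * Real.log (annealedConstant f))) ∧
          Tendsto (fun N : ℕ => sphereExpectedPressure N ⌊α * N⌋₊ f) atTop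
            (𝓝 (α * Real.log (annealedConstant f)))) ∧
      ((∃ α : ℝ, 0 < α ∧ Tendsto (fun N : ℕ => expectedPressure N ⌊α * N⌋₊ f) atTop
          (𝓝 (α * Real.log (annealedConstant f)))) →
        (∫ x, x * Real.exp (f x) ∂(gaussianReal 0 1)) = 0) ∧
      ((∃ α : ℝ, 0 < α ∧ Tendsto (fun N : ℕ => sphereExpectedPressure N ⌊α * N⌋₊ f) atTop
          (𝓝 (α * Real.log (annealedConstant f)))) →
        (∫ x, x * Real.exp (f x) ∂(gaussianReal 0 1)) = 0)) :=
  ⟨Vale.Agent.Results.P157.AAAAA_union.result.1, Vale.Agent.Results.P157.AAAAA_union.result.2.1, Vale.Agent.Results.P157.AAAAA_union.result.2.2.1, Vale.Agent.Results.P157.AAAAA_union.result.2.2.2.1, Vale.Agent.Results.P157.AAAAA_union.result.2.2.2.2.1, Vale.Agent.Results.P157.AAAAA_union.result.2.2.2.2.2.1, Vale.Agent.Results.P157.AAAAA_union.result.2.2.2.2.2.2,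
    fun f hf L hL hfL =>
      ⟨fun hc α hα hαB =>
        ⟨cube_annealed_of_var hf hL hfL hc hα (by rw [secMoment_one_eq]; exact hαB),
          sphere_annealed_of_var hf hL hfL hc hα (by rw [secMoment_one_eq]; exact hαB)⟩,
        fun ⟨_α, hα, h⟩ => mean_zero_of_cube_annealed hf hfL hα h,
        fun h => (sphere_exists_annealed_iff hf hL hfL).mp h⟩⟩

end Vale.Agent.Results.P157.AAAAAAA_union
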